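import Vale.Agent.P038.H486.SNC

/-! Second part: outer pairs, the key lemma and the conclusion (helper848's note 22880). -/

namespace Vale.Agent.P038.H486

open Finset Classical

variable {V : Type*} [Fintype V] [DecidableEq V]

/-! ### Constrained minima of `c` -/

theorem exists_mn (N : V → Finset V) {A U : Finset V} (h : A ⊆ U) :
    ∃ T, (A ⊆ T ∧ T ⊆ U) ∧ ∀ T', A ⊆ T' → T' ⊆ U → c N T ≤ c N T' := by
  obtain ⟨T, hT, hm⟩ := Finset.exists_min_image
    ((Finset.univ : Finset (Finset V)).filter (fun T => A ⊆ T ∧ T ⊆ U)) (c N)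
    ⟨A, by simp [h]⟩
  refine ⟨T, (Finset.mem_filter.1 hT).2, ?_⟩
  intro T' h1 h2
  exact hm T' (Finset.mem_filter.2 ⟨Finset.mem_univ _, h1, h2⟩)

noncomputable def mn (N : V → Finset V) (A U : Finset V) : ℤ :=
  if h : A ⊆ U then c N (Classical.choose (exists_mn N h)) else 0

theorem mn_le {N : V → Finset V} {A U T : Finset V} (h1 : A ⊆ T) (h2 : T ⊆ U) :
    mn N A U ≤ c N T := by
  have h : A ⊆ U := h1.trans h2
  unfold mn
  rw [dif_pos h]
  exact (Classical.choose_spec (exists_mn N h)).2 T h1 h2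

theorem exists_eq_mn (N : V → Finset V) {A U : Finset V} (h : A ⊆ U) :
    ∃ T, A ⊆ T ∧ T ⊆ U ∧ mn N A U = c N T := by
  refine ⟨Classical.choose (exists_mn N h), (Classical.choose_spec (exists_mn N h)).1.1,
    (Classical.choose_spec (exists_mn N h)).1.2, ?_⟩
  unfold mn
  rw [dif_pos h]

/-! ### Outer pairs -/

structure OP (N B C : V → Finset V) : Prop where
  nb : ∀ a, N a ⊆ B a
  nc : ∀ a, N a ⊆ C a
  ort : ∀ a x, x ∈ B a → a ∈ C x → a = x

noncomputable def o (N B C : V → Finset V) : ℤ := ∑ a, c N (B a) + ∑ a, c N (C a)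

/-- `B^` -/
noncomputable def Bh (C : V → Finset V) (a : V) : Finset V :=
  Finset.univ.filter (fun x => x = a ∨ a ∉ C x)

/-- `X^` -/
noncomputable def Xh (N C : V → Finset V) (a : V) : Finset V :=
  Finset.univ.filter (fun x => ∀ a', a ∈ N a' → x ∈ Bh C a')

/-- `Y` -/
noncomputable def Yy (N C : V → Finset V) (y : V) : Finset V :=
  Finset.univ.filter (fun z => ∀ y', y ∈ N y' → z ∈ C y')

theorem mem_Bh {C : V → Finset V} {a x : V} : x ∈ Bh C a ↔ (x = a ∨ a ∉ C x) := by
  simp [Bh]

theorem mem_Xh {N C : V → Finset V} {a x : V} :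
    x ∈ Xh N C a ↔ ∀ a', a ∈ N a' → x ∈ Bh C a' := by
  simp [Xh]

theorem mem_Yy {N C : V → Finset V} {y z : V} :
    z ∈ Yy N C y ↔ ∀ y', y ∈ N y' → z ∈ C y' := by
  simp [Yy]

section

variable {N B C : V → Finset V}

theorem B_sub (h : OP N B C) (a : V) : B a ⊆ Bh C a := by
  intro x hx
  rw [mem_Bh]
  by_cases hc : a ∈ C x
  · exact Or.inl (h.ort a x hx hc).symm
  · exact Or.inr hc

theorem self_Xh (hO : OG N) (h : OP N B C) (a : V) : a ∈ Xh N C a := by
  rw [mem_Xh]
  intro a' ha
  exact B_sub h a' (h.nb a' ha)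

theorem self_Yy (h : OP N B C) (y : V) : y ∈ Yy N C y := by
  rw [mem_Yy]
  intro y' hy
  exact h.nc y' hy

theorem feas (hO : OG N) (h : OP N B C) {a y x z : V} (hx : x ∈ Xh N C a) (hy : y ∈ N x)
    (hz : z ∈ Yy N C y) (ha : a ∈ N z) : a = y := by
  have h1 := mem_Bh.1 (mem_Xh.1 hx z ha)
  have h2 := mem_Yy.1 hz x hy
  have h3 : x = z := by
    rcases h1 with h | h
    · exact h
    · exact absurd h2 h
  subst h3
  have h4 : a ∈ C x := h.nc x ha
  have h5 := mem_Bh.1 (mem_Xh.1 hx a (hO.refl a))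
  have h6 : x = a := by
    rcases h5 with h | h
    · exact h
    · exact absurd h4 h
  subst h6
  have h7 : x ∈ C y := mem_Yy.1 hz y (hO.refl y)
  exact h.ort x y (h.nb x hy) h7

theorem feas_cl (hO : OG N) (h : OP N B C) {a y : V} (hx : y ∈ cl N (Xh N C a))
    (hy : a ∈ cl N (Yy N C y)) : a = y := by
  obtain ⟨x, hx1, hx2⟩ := mem_cl.1 hx
  obtain ⟨z, hz1, hz2⟩ := mem_cl.1 hy
  exact feas hO h hx1 hx2 hz1 hz2

/-! ### Lemma 1 -/

theorem c_eq_card (hO : OG N) (S : Finset V) : c N S = ((cl N S \ S).card : ℤ) := by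
  have := Finset.card_sdiff_add_card_eq_card (subset_cl hO S)
  unfold c
  omega

theorem sum_c_eq (hO : OG N) (F : V → Finset V) :
    ∑ a, c N (F a) = (((Finset.univ : Finset (V × V)).filter
      (fun p => p.2 ∈ cl N (F p.1) ∧ p.2 ∉ F p.1)).card : ℤ) := by
  have h1 : ∀ a, c N (F a) = ((cl N (F a) \ F a).card : ℤ) := fun a => c_eq_card hO (F a)
  rw [Finset.sum_congr rfl (fun a _ => h1 a)]
  rw [← Nat.cast_sum]
  congr 1
  rw [Finset.card_filter, Fintype.sum_prod_type]
  apply Finset.sum_congr rfl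
  intro a _
  rw [← Finset.card_filter]
  congr 1
  ext x
  simp

theorem sum_c_eq' (hO : OG N) (F : V → Finset V) :
    ∑ a, c N (F a) = (((Finset.univ : Finset (V × V)).filter
      (fun p => p.1 ∈ cl N (F p.2) ∧ p.1 ∉ F p.2)).card : ℤ) := by
  rw [sum_c_eq hO F]
  congr 1
  apply Finset.card_bij (fun p _ => (p.2, p.1))
  · intro p hp
    simpa using hp
  · intro p _ q _ h
    simp only [Prod.mk.injEq] at h
    exact Prod.ext h.2 h.1
  · intro p hp
    refine ⟨(p.2, p.1), ?_, rfl⟩
    simpa using hp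

theorem lemma1 (hO : OG N) (h : OP N B C) :
    ∑ a, c N (Xh N C a) + ∑ y, c N (Yy N C y) ≤ ∑ a, c N (Bh C a) + ∑ y, c N (C y) := by
  rw [sum_c_eq hO (Xh N C), sum_c_eq' hO (Yy N C), sum_c_eq hO (Bh C), sum_c_eq' hO C]
  have hXB : ∀ a, Xh N C a ⊆ Bh C a := fun a x hx => mem_Xh.1 hx a (hO.refl a)
  have hYC : ∀ y, Yy N C y ⊆ C y := fun y z hz => mem_Yy.1 hz y (hO.refl y)
  set P1 := (Finset.univ : Finset (V × V)).filter (fun p => p.2 ∈ cl N (Xh N C p.1) ∧ p.2 ∉ Xh N C p.1)
  set P2 := (Finset.univ : Finset (V × V)).filter (fun p => p.1 ∈ cl N (Yy N C p.2) ∧ p.1 ∉ Yy N C p.2)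
  set R1 := (Finset.univ : Finset (V × V)).filter (fun p => p.2 ∈ cl N (Bh C p.1) ∧ p.2 ∉ Bh C p.1)
  set R2 := (Finset.univ : Finset (V × V)).filter (fun p => p.1 ∈ cl N (C p.2) ∧ p.1 ∉ C p.2)
  have hdisj : Disjoint P1 P2 := by
    rw [Finset.disjoint_left]
    rintro ⟨a, y⟩ h1 h2
    simp only [P1, P2, Finset.mem_filter, Finset.mem_univ, true_and] at h1 h2
    have := feas_cl hO h h1.1 h2.1
    subst this
    exact h1.2 (self_Xh hO h a)
  have hsub1 : P1 ⊆ R1 ∪ R2 := by
    rintro ⟨a, y⟩ h1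
    simp only [P1, R1, R2, Finset.mem_filter, Finset.mem_univ, true_and, Finset.mem_union] at h1 ⊢
    obtain ⟨h1, h2⟩ := h1
    rw [mem_Xh] at h2
    push Not at h2
    obtain ⟨a', ha', hy⟩ := h2
    rw [mem_Bh] at hy
    push Not at hy
    have h3 : a ∈ cl N (C y) := mem_cl.2 ⟨a', hy.2, ha'⟩
    by_cases h4 : a ∈ C y
    · left
      refine ⟨cl_mono (hXB a) h1, ?_⟩
      rw [mem_Bh]
      rintro (h5 | h5)
      · subst h5
        exact hy.1 (by
          have := h.ort a' y (h.nb a' ha') hy.2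
          exact this.symm)
      · exact h5 h4
    · right
      exact ⟨h3, h4⟩
  have hsub2 : P2 ⊆ R1 ∪ R2 := by
    rintro ⟨a, y⟩ h1
    simp only [P2, R1, R2, Finset.mem_filter, Finset.mem_univ, true_and, Finset.mem_union] at h1 ⊢
    obtain ⟨h1, h2⟩ := h1
    have h2' := h2
    rw [mem_Yy] at h2
    push Not at h2
    obtain ⟨y', hy', hay⟩ := h2
    have h3 : y' ∈ Bh C a := mem_Bh.2 (Or.inr hay)
    have h4 : y ∈ cl N (Bh C a) := mem_cl.2 ⟨y', h3, hy'⟩
    by_cases h5 : y ∈ Bh C a
    · right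
      refine ⟨cl_mono (hYC y) h1, ?_⟩
      rcases mem_Bh.1 h5 with h6 | h6
      · subst h6
        exact absurd (self_Yy h y) h2'
      · exact h6
    · left
      exact ⟨h4, h5⟩
  have h1 : (P1 ∪ P2).card = P1.card + P2.card := Finset.card_union_of_disjoint hdisj
  have h2 : (P1 ∪ P2).card ≤ (R1 ∪ R2).card :=
    Finset.card_le_card (Finset.union_subset hsub1 hsub2)
  have h3 := Finset.card_union_le R1 R2
  have h4 : P1.card + P2.card ≤ R1.card + R2.card := by omega
  exact_mod_cast h4

/-! ### Optimality of the outer pair -/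

theorem optR (h : OP N B C) (hm : ∀ B' C' : V → Finset V, OP N B' C' → o N B C ≤ o N B' C')
    (a : V) {T : Finset V} (h1 : B a ⊆ T) (h2 : T ⊆ Bh C a) : c N (B a) ≤ c N T := by
  have hop : OP N (Function.update B a T) C := by
    constructor
    · intro b
      by_cases hb : b = a
      · subst hb
        simp only [Function.update_self]
        exact (h.nb b).trans h1
      · simp only [Function.update_of_ne hb]
        exact h.nb b
    · exact h.nc
    · intro b x hx hbx
      by_cases hb : b = a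
      · subst hb
        simp only [Function.update_self] at hx
        rcases mem_Bh.1 (h2 hx) with h3 | h3
        · exact h3.symm
        · exact absurd hbx h3
      · simp only [Function.update_of_ne hb] at hx
        exact h.ort b x hx hbx
  have h3 := hm _ _ hop
  unfold o at h3
  have h4 : ∑ b, c N (Function.update B a T b) = ∑ b, c N (B b) - c N (B a) + c N T := by
    rw [← Finset.add_sum_erase Finset.univ (fun b => c N (Function.update B a T b)) (Finset.mem_univ a),
      ← Finset.add_sum_erase Finset.univ (fun b => c N (B b)) (Finset.mem_univ a)]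
    have h5 : ∑ b ∈ Finset.univ.erase a, c N (Function.update B a T b)
        = ∑ b ∈ Finset.univ.erase a, c N (B b) := by
      apply Finset.sum_congr rfl
      intro b hb
      rw [Function.update_of_ne (Finset.ne_of_mem_erase hb)]
    rw [h5]
    simp only [Function.update_self]
    ring
  linarith

theorem optC (hO : OG N) (h : OP N B C)
    (hm : ∀ B' C' : V → Finset V, OP N B' C' → o N B C ≤ o N B' C')
    (y : V) {K : Finset V} (hK : ∀ a ∈ K, y ∈ Bh C a ∧ y ∉ B a) :
    K.card ≤ (cl N K \ cl N (C y)).card := by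
  have hop : OP N B (Function.update C y (C y ∪ K)) := by
    constructor
    · exact h.nb
    · intro b
      by_cases hb : b = y
      · subst hb
        simp only [Function.update_self]
        exact (h.nc b).trans Finset.subset_union_left
      · simp only [Function.update_of_ne hb]
        exact h.nc b
    · intro b x hx hbx
      by_cases hb : x = y
      · subst hb
        simp only [Function.update_self] at hbx
        rcases Finset.mem_union.1 hbx with h3 | h3
        · exact h.ort b x hx h3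
        · exact absurd hx (hK b h3).2
      · simp only [Function.update_of_ne hb] at hbx
        exact h.ort b x hx hbx
  have h3 := hm _ _ hop
  unfold o at h3
  have h4 : ∑ b, c N (Function.update C y (C y ∪ K) b) = ∑ b, c N (C b) - c N (C y) + c N (C y ∪ K) := by
    rw [← Finset.add_sum_erase Finset.univ (fun b => c N (Function.update C y (C y ∪ K) b)) (Finset.mem_univ y),
      ← Finset.add_sum_erase Finset.univ (fun b => c N (C b)) (Finset.mem_univ y)]
    have h5 : ∑ b ∈ Finset.univ.erase y, c N (Function.update C y (C y ∪ K) b)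
        = ∑ b ∈ Finset.univ.erase y, c N (C b) := by
      apply Finset.sum_congr rfl
      intro b hb
      rw [Function.update_of_ne (Finset.ne_of_mem_erase hb)]
    rw [h5]
    simp only [Function.update_self]
    ring
  have h5 : c N (C y) ≤ c N (C y ∪ K) := by linarith
  have h6 : Disjoint (C y) K := by
    rw [Finset.disjoint_left]
    intro a ha haK
    obtain ⟨h7, h8⟩ := hK a haK
    rcases mem_Bh.1 h7 with h9 | h9
    · subst h9
      exact h8 (h.nb y (hO.refl y))
    · exact h9 ha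
  have h7 : (C y ∪ K).card = (C y).card + K.card := Finset.card_union_of_disjoint h6
  have h8 : (cl N (C y ∪ K)).card = (cl N (C y)).card + (cl N K \ cl N (C y)).card := by
    rw [cl_union, ← Finset.union_sdiff_self_eq_union, Finset.card_union_of_disjoint Finset.disjoint_sdiff]
  unfold c at h5
  rw [h7, h8] at h5
  push_cast at h5
  omega

/-- Hall's injection. -/
theorem hall (hO : OG N) (h : OP N B C)
    (hm : ∀ B' C' : V → Finset V, OP N B' C' → o N B C ≤ o N B' C') (y : V) :
    ∃ f : {a : V // y ∈ Bh C a ∧ y ∉ B a} → V, Function.Injective f ∧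
      ∀ a, f a ∈ N a.1 ∧ y ∈ Xh N C (f a) := by
  have hH := (Finset.all_card_le_biUnion_card_iff_exists_injective
    (fun a : {a : V // y ∈ Bh C a ∧ y ∉ B a} => N a.1 \ cl N (C y))).1 (by
      intro s
      have h1 := optC hO h hm y (K := s.map ⟨Subtype.val, Subtype.val_injective⟩) (by
        intro a ha
        obtain ⟨b, _, hb⟩ := Finset.mem_map.1 ha
        rw [← hb]
        exact b.2)
      rw [Finset.card_map] at h1
      refine h1.trans (Finset.card_le_card ?_)
      intro x hx
      obtain ⟨hx1, hx2⟩ := Finset.mem_sdiff.1 hx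
      obtain ⟨b, hb, hxb⟩ := mem_cl.1 hx1
      obtain ⟨b', hb', rfl⟩ := Finset.mem_map.1 hb
      exact Finset.mem_biUnion.2 ⟨b', hb', Finset.mem_sdiff.2 ⟨hxb, hx2⟩⟩)
  obtain ⟨f, hf, hf'⟩ := hH
  refine ⟨f, hf, fun a => ?_⟩
  obtain ⟨h1, h2⟩ := Finset.mem_sdiff.1 (hf' a)
  refine ⟨h1, ?_⟩
  rw [mem_Xh]
  intro s hs
  rw [mem_Bh]
  right
  intro hsC
  exact h2 (mem_cl.2 ⟨s, hsC, hs⟩)

/-! ### Key lemma -/

theorem key (hO : OG N) (h : OP N B C)
    (hm : ∀ B' C' : V → Finset V, OP N B' C' → o N B C ≤ o N B' C') :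
    ∑ a, (c N (Bh C a) - c N (B a)) ≤ ∑ a, (c N (Xh N C a) - mn N {a} (Xh N C a)) := by
  have hXB : ∀ a a', a ∈ N a' → Xh N C a ⊆ Bh C a' := fun a a' ha x hx => mem_Xh.1 hx a' ha
  set e : V → Finset V → ℤ := fun a S => mn N (B a ∪ (Bh C a ∩ S)) (Bh C a) with he
  set d : V → Finset V → ℤ := fun a S => mn N ({a} ∪ (Xh N C a ∩ S)) (Xh N C a) with hd
  have heb : ∀ a S, B a ∪ (Bh C a ∩ S) ⊆ Bh C a := fun a S =>
    Finset.union_subset (B_sub h a) Finset.inter_subset_left
  have hdb : ∀ a S, {a} ∪ (Xh N C a ∩ S) ⊆ Xh N C a := fun a S =>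
    Finset.union_subset (Finset.singleton_subset_iff.2 (self_Xh hO h a)) Finset.inter_subset_left
  have hdmono : ∀ a S y, d a S ≤ d a (insert y S) := by
    intro a S y
    obtain ⟨T, h1, h2, h3⟩ := exists_eq_mn N (hdb a (insert y S))
    show mn N ({a} ∪ (Xh N C a ∩ S)) (Xh N C a) ≤ mn N ({a} ∪ (Xh N C a ∩ insert y S)) (Xh N C a)
    rw [h3]
    apply mn_le _ h2
    refine Finset.Subset.trans ?_ h1
    apply Finset.union_subset_union_right
    exact Finset.inter_subset_inter_left (Finset.subset_insert y S)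
  have hestay : ∀ a S y, ¬ (y ∈ Bh C a ∧ y ∉ B a) → e a (insert y S) ≤ e a S := by
    intro a S y hy
    obtain ⟨T, h1, h2, h3⟩ := exists_eq_mn N (heb a S)
    show mn N (B a ∪ (Bh C a ∩ insert y S)) (Bh C a) ≤ mn N (B a ∪ (Bh C a ∩ S)) (Bh C a)
    rw [h3]
    apply mn_le _ h2
    intro x hx
    rcases Finset.mem_union.1 hx with hx | hx
    · exact h1 (Finset.mem_union_left _ hx)
    · obtain ⟨hx1, hx2⟩ := Finset.mem_inter.1 hx
      rcases Finset.mem_insert.1 hx2 with rfl | hx2
      · have hxB : x ∈ B a := by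
          by_contra hxB
          exact hy ⟨hx1, hxB⟩
        exact h1 (Finset.mem_union_left _ hxB)
      · exact h1 (Finset.mem_union_right _ (Finset.mem_inter.2 ⟨hx1, hx2⟩))
  have hmarg : ∀ a a' S y, a ∈ N a' → y ∈ Xh N C a →
      d a S + e a' (insert y S) ≤ d a (insert y S) + e a' S := by
    intro a a' S y haa' hy
    obtain ⟨T1, h11, h12, h13⟩ := exists_eq_mn N (hdb a (insert y S))
    obtain ⟨T0, h01, h02, h03⟩ := exists_eq_mn N (heb a' S)
    show mn N ({a} ∪ (Xh N C a ∩ S)) (Xh N C a) + mn N (B a' ∪ (Bh C a' ∩ insert y S)) (Bh C a')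
      ≤ mn N ({a} ∪ (Xh N C a ∩ insert y S)) (Xh N C a) + mn N (B a' ∪ (Bh C a' ∩ S)) (Bh C a')
    rw [h13, h03]
    have ha1 : a ∈ T1 := h11 (Finset.mem_union_left _ (Finset.mem_singleton_self a))
    have ha0 : a ∈ T0 := h01 (Finset.mem_union_left _ (h.nb a' haa'))
    have hc1 : mn N (B a' ∪ (Bh C a' ∩ insert y S)) (Bh C a') ≤ c N (T1 ∪ T0) := by
      apply mn_le
      · intro x hx
        rcases Finset.mem_union.1 hx with hx | hx
        · exact Finset.mem_union_right _ (h01 (Finset.mem_union_left _ hx))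
        · obtain ⟨hx1, hx2⟩ := Finset.mem_inter.1 hx
          rcases Finset.mem_insert.1 hx2 with rfl | hx2
          · apply Finset.mem_union_left
            exact h11 (Finset.mem_union_right _ (Finset.mem_inter.2 ⟨hy, Finset.mem_insert_self _ _⟩))
          · exact Finset.mem_union_right _
              (h01 (Finset.mem_union_right _ (Finset.mem_inter.2 ⟨hx1, hx2⟩)))
      · exact Finset.union_subset (h12.trans (hXB a a' haa')) h02
    have hc2 : mn N ({a} ∪ (Xh N C a ∩ S)) (Xh N C a) ≤ c N (T1 ∩ T0) := by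
      apply mn_le
      · intro x hx
        rcases Finset.mem_union.1 hx with hx | hx
        · rw [Finset.mem_singleton] at hx
          subst hx
          exact Finset.mem_inter.2 ⟨ha1, ha0⟩
        · obtain ⟨hx1, hx2⟩ := Finset.mem_inter.1 hx
          refine Finset.mem_inter.2 ⟨?_, ?_⟩
          · exact h11 (Finset.mem_union_right _
              (Finset.mem_inter.2 ⟨hx1, Finset.mem_insert_of_mem hx2⟩))
          · exact h01 (Finset.mem_union_right _
              (Finset.mem_inter.2 ⟨hXB a a' haa' hx1, hx2⟩))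
      · exact Finset.inter_subset_left.trans h12
    have := c_submod N T1 T0
    linarith
  have hstep : ∀ S y, ∑ a, (e a (insert y S) - e a S) ≤ ∑ a, (d a (insert y S) - d a S) := by
    intro S y
    obtain ⟨f, hf, hf'⟩ := hall hO h hm y
    have h1 : ∑ a, (e a (insert y S) - e a S)
        ≤ ∑ a ∈ Finset.univ.filter (fun a => y ∈ Bh C a ∧ y ∉ B a), (e a (insert y S) - e a S) := by
      rw [← Finset.sum_filter_add_sum_filter_not Finset.univ (fun a => y ∈ Bh C a ∧ y ∉ B a)]
      have : ∑ a ∈ Finset.univ.filter (fun a => ¬ (y ∈ Bh C a ∧ y ∉ B a)),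
          (e a (insert y S) - e a S) ≤ 0 := by
        apply Finset.sum_nonpos
        intro a ha
        have := hestay a S y (Finset.mem_filter.1 ha).2
        linarith
      linarith
    have h2 : ∑ a ∈ Finset.univ.filter (fun a => y ∈ Bh C a ∧ y ∉ B a), (e a (insert y S) - e a S)
        = ∑ a : {a : V // y ∈ Bh C a ∧ y ∉ B a}, (e a.1 (insert y S) - e a.1 S) := by
      rw [Finset.sum_subtype (Finset.univ.filter (fun a => y ∈ Bh C a ∧ y ∉ B a))
        (p := fun a => y ∈ Bh C a ∧ y ∉ B a) (by intro x; simp)]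
    have h3 : ∑ a : {a : V // y ∈ Bh C a ∧ y ∉ B a}, (e a.1 (insert y S) - e a.1 S)
        ≤ ∑ a : {a : V // y ∈ Bh C a ∧ y ∉ B a}, (d (f a) (insert y S) - d (f a) S) := by
      apply Finset.sum_le_sum
      intro a _
      have := hmarg (f a) a.1 S y (hf' a).1 (hf' a).2
      linarith
    have h4 : ∑ a : {a : V // y ∈ Bh C a ∧ y ∉ B a}, (d (f a) (insert y S) - d (f a) S)
        = ∑ b ∈ Finset.univ.map ⟨f, hf⟩, (d b (insert y S) - d b S) := by
      rw [Finset.sum_map]
      rfl
    have h5 : ∑ b ∈ Finset.univ.map ⟨f, hf⟩, (d b (insert y S) - d b S)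
        ≤ ∑ b, (d b (insert y S) - d b S) := by
      apply Finset.sum_le_sum_of_subset_of_nonneg (Finset.subset_univ _)
      intro b _ _
      have := hdmono b S y
      linarith
    linarith
  have hind : ∀ S : Finset V, ∑ a, (e a S - e a ∅) ≤ ∑ a, (d a S - d a ∅) := by
    intro S
    induction S using Finset.induction_on with
    | empty => simp
    | insert y S _ ih =>
      have h1 := hstep S y
      simp only [Finset.sum_sub_distrib] at h1 ih ⊢
      linarith
  have hfin := hind Finset.univ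
  have he1 : ∀ a, e a Finset.univ = c N (Bh C a) := by
    intro a
    obtain ⟨T, h1, h2, h3⟩ := exists_eq_mn N (heb a Finset.univ)
    have h4 : T = Bh C a := by
      apply Finset.Subset.antisymm h2
      intro x hx
      exact h1 (Finset.mem_union_right _ (Finset.mem_inter.2 ⟨hx, Finset.mem_univ _⟩))
    show mn N (B a ∪ (Bh C a ∩ Finset.univ)) (Bh C a) = _
    rw [h3, h4]
  have he0 : ∀ a, e a ∅ ≤ c N (B a) := by
    intro a
    show mn N (B a ∪ (Bh C a ∩ ∅)) (Bh C a) ≤ _
    apply mn_le _ (B_sub h a)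
    simp
  have hd1 : ∀ a, d a Finset.univ = c N (Xh N C a) := by
    intro a
    obtain ⟨T, h1, h2, h3⟩ := exists_eq_mn N (hdb a Finset.univ)
    have h4 : T = Xh N C a := by
      apply Finset.Subset.antisymm h2
      intro x hx
      exact h1 (Finset.mem_union_right _ (Finset.mem_inter.2 ⟨hx, Finset.mem_univ _⟩))
    show mn N ({a} ∪ (Xh N C a ∩ Finset.univ)) (Xh N C a) = _
    rw [h3, h4]
  have hd0 : ∀ a, d a ∅ = mn N {a} (Xh N C a) := by
    intro a
    show mn N ({a} ∪ (Xh N C a ∩ ∅)) (Xh N C a) = _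
    simp
  have h1 : ∑ a, (c N (Bh C a) - c N (B a)) ≤ ∑ a, (e a Finset.univ - e a ∅) := by
    apply Finset.sum_le_sum
    intro a _
    rw [he1 a]
    have := he0 a
    linarith
  have h2 : ∑ a, (d a Finset.univ - d a ∅) = ∑ a, (c N (Xh N C a) - mn N {a} (Xh N C a)) := by
    apply Finset.sum_congr rfl
    intro a _
    rw [hd1 a, hd0 a]
  linarith

/-! ### The contradiction -/

theorem closed_contra (hO : OG N) (hC : CE N) [Nonempty V] {X Y : V → Finset V}
    (hX : ∀ a, a ∈ X a) (hY : ∀ a, a ∈ Y a)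
    (ho : ∀ a y, y ∈ cl N (X a) → a ∈ cl N (Y y) → a = y)
    (hYc : ∀ a, cl N (Y a) = Y a) : False := by
  obtain ⟨Z, hZ, hZm⟩ := Finset.exists_min_image
    ((Finset.univ : Finset (Finset V)).filter (fun Z => cl N Z = Z ∧ Z.Nonempty)) Finset.card
    ⟨Finset.univ, by
      simp only [Finset.mem_filter, Finset.mem_univ, true_and]
      exact ⟨Finset.Subset.antisymm (Finset.subset_univ _) (subset_cl hO _), Finset.univ_nonempty⟩⟩
  obtain ⟨_, hZc, a, ha⟩ := Finset.mem_filter.1 hZ
  -- an out-neighbour b ≠ a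
  have h1 : 2 ≤ (N a).card := by
    have := hC a
    have h2 := Finset.card_le_card (subset_cl hO (N a))
    omega
  obtain ⟨b, hb, hba⟩ := Finset.exists_mem_ne (by omega : 1 < (N a).card) a
  have hbZ : b ∈ Z := by
    rw [← hZc]
    exact mem_cl.2 ⟨a, ha, hb⟩
  have hW : cl N (Y b ∩ Z) = Y b ∩ Z := by
    apply Finset.Subset.antisymm _ (subset_cl hO _)
    intro x hx
    refine Finset.mem_inter.2 ⟨?_, ?_⟩
    · rw [← hYc b]; exact cl_mono Finset.inter_subset_left hx
    · rw [← hZc]; exact cl_mono Finset.inter_subset_right hx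
  have h3 := hZm (Y b ∩ Z) (by
    simp only [Finset.mem_filter, Finset.mem_univ, true_and]
    exact ⟨hW, ⟨b, Finset.mem_inter.2 ⟨hY b, hbZ⟩⟩⟩)
  have h4 : Y b ∩ Z = Z := Finset.eq_of_subset_of_card_le Finset.inter_subset_right h3
  have h5 : a ∈ Y b := by
    have : a ∈ Y b ∩ Z := by rw [h4]; exact ha
    exact (Finset.mem_inter.1 this).1
  have h6 := ho a b (mem_cl.2 ⟨a, hX a, hb⟩) (subset_cl hO _ h5)
  exact hba h6.symm

theorem no_CE (hO : OG N) (hC : CE N) [Nonempty V] : False := by
  -- arc-minimal counterexample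
  obtain ⟨N, hN, hNm⟩ := Finset.exists_min_image
    ((Finset.univ : Finset (V → Finset V)).filter (fun N => OG N ∧ CE N)) (fun N => ∑ v, (N v).card)
    ⟨N, by simp only [Finset.mem_filter, Finset.mem_univ, true_and]; exact ⟨hO, hC⟩⟩
  obtain ⟨_, hO, hC⟩ := Finset.mem_filter.1 hN
  have hmin : ∀ N' : V → Finset V, OG N' → CE N' → ∑ v, (N v).card ≤ ∑ v, (N' v).card := by
    intro N' h1 h2
    exact hNm N' (Finset.mem_filter.2 ⟨Finset.mem_univ _, h1, h2⟩)
  -- optimal outer pair
  obtain ⟨⟨B, C⟩, hp, hpm⟩ := Finset.exists_min_image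
    ((Finset.univ : Finset ((V → Finset V) × (V → Finset V))).filter (fun p => OP N p.1 p.2))
    (fun p => o N p.1 p.2)
    ⟨(N, N), by
      simp only [Finset.mem_filter, Finset.mem_univ, true_and]
      exact ⟨fun a => Finset.Subset.refl _, fun a => Finset.Subset.refl _, fun a x hx ha => hO.anti a x hx ha⟩⟩
  have h : OP N B C := (Finset.mem_filter.1 hp).2
  have hm : ∀ B' C' : V → Finset V, OP N B' C' → o N B C ≤ o N B' C' := by
    intro B' C' h'
    exact hpm (B', C') (Finset.mem_filter.2 ⟨Finset.mem_univ _, h'⟩)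
  -- the sets X
  have hX : ∀ a, ∃ T, {a} ⊆ T ∧ T ⊆ Xh N C a ∧ mn N {a} (Xh N C a) = c N T := fun a =>
    exists_eq_mn N (Finset.singleton_subset_iff.2 (self_Xh hO h a))
  choose X hX1 hX2 hX3 using hX
  have hXa : ∀ a, a ∈ X a := fun a => Finset.singleton_subset_iff.1 (hX1 a)
  have hYa : ∀ a, a ∈ Yy N C a := self_Yy h
  have horth : ∀ a y, y ∈ cl N (X a) → a ∈ cl N (Yy N C y) → a = y := by
    intro a y h1 h2
    exact feas_cl hO h (cl_mono (hX2 a) h1) h2
  have hop : OP N (fun a => cl N (X a)) (fun a => cl N (Yy N C a)) := by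
    constructor
    · intro a x hx
      exact mem_cl.2 ⟨a, hXa a, hx⟩
    · intro a x hx
      exact mem_cl.2 ⟨a, hYa a, hx⟩
    · exact horth
  have h1 := hm _ _ hop
  have h2 := lemma1 hO h
  have h3 := key hO h hm
  have h4 : ∑ a, mn N {a} (Xh N C a) = ∑ a, c N (X a) := Finset.sum_congr rfl (fun a _ => hX3 a)
  simp only [Finset.sum_sub_distrib] at h3
  rw [h4] at h3
  unfold o at h1
  have g1 : ∀ a, c N (cl N (X a)) ≤ c N (X a) := fun a => G_le hO hC hmin (X a)
  have g2 : ∀ a, c N (cl N (Yy N C a)) ≤ c N (Yy N C a) := fun a => G_le hO hC hmin (Yy N C a)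
  have g3 : ∑ a, c N (cl N (X a)) ≤ ∑ a, c N (X a) := Finset.sum_le_sum (fun a _ => g1 a)
  have g4 : ∑ a, c N (cl N (Yy N C a)) ≤ ∑ a, c N (Yy N C a) := Finset.sum_le_sum (fun a _ => g2 a)
  have hYc : ∀ a, cl N (Yy N C a) = Yy N C a := by
    intro a
    by_contra hne
    have hlt := G_strict hO hC hmin _ hne
    have : ∑ a, c N (cl N (Yy N C a)) < ∑ a, c N (Yy N C a) :=
      Finset.sum_lt_sum (fun b _ => g2 b) ⟨a, Finset.mem_univ _, hlt⟩
    linarith
  exact closed_contra hO hC hXa hYa horth hYc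

end

/-- Seymour's second neighbourhood conjecture for finite oriented graphs. -/
theorem snc {V : Type*} [Fintype V] [Nonempty V] (arc : V → V → Prop)
    (hasym : ∀ a b, arc a b → ¬ arc b a) :
    ∃ v, (Finset.univ.filter (fun x => arc v x)).card ≤
      (Finset.univ.filter (fun y => ¬ arc v y ∧ y ≠ v ∧ ∃ x, arc v x ∧ arc x y)).card := by
  classical
  by_contra hcon
  push Not at hcon
  set N : V → Finset V := fun v => Finset.univ.filter (fun x => x = v ∨ arc v x) with hN
  have hmem : ∀ v x, x ∈ N v ↔ (x = v ∨ arc v x) := by intro v x; simp [hN]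
  have hirr : ∀ a, ¬ arc a a := fun a h => hasym a a h h
  have hO : OG N := by
    constructor
    · intro a
      rw [hmem]
      exact Or.inl rfl
    · intro a b h1 h2
      rw [hmem] at h1 h2
      rcases h1 with h1 | h1
      · exact h1.symm
      · rcases h2 with h2 | h2
        · exact h2
        · exact absurd h2 (hasym a b h1)
  apply no_CE hO
  intro v
  set A := Finset.univ.filter (fun x => arc v x) with hA
  set S := Finset.univ.filter (fun y => ¬ arc v y ∧ y ≠ v ∧ ∃ x, arc v x ∧ arc x y) with hS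
  have h1 : N v = insert v A := by
    ext x
    rw [hmem]
    simp [hA]
  have h2 : v ∉ A := by simp [hA, hirr]
  have h3 : (N v).card = A.card + 1 := by rw [h1, Finset.card_insert_of_notMem h2]
  have h4 : cl N (N v) ⊆ N v ∪ S := by
    intro y hy
    obtain ⟨x, hx, hxy⟩ := mem_cl.1 hy
    rw [hmem] at hx hxy
    rw [Finset.mem_union, hmem]
    by_cases hyv : y = v
    · exact Or.inl (Or.inl hyv)
    by_cases hvy : arc v y
    · exact Or.inl (Or.inr hvy)
    right
    rcases hx with rfl | hx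
    · rcases hxy with h | h
      · exact absurd h hyv
      · exact absurd h hvy
    · rcases hxy with rfl | h
      · exact absurd hx hvy
      · simp only [hS, Finset.mem_filter, Finset.mem_univ, true_and]
        exact ⟨hvy, hyv, x, hx, h⟩
  have h5 := Finset.card_le_card h4
  have h6 := Finset.card_union_le (N v) S
  have h7 := hcon v
  have h8 : S.card < A.card := h7
  omega

end Vale.Agent.P038.H486
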