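import Mathlib

/-! Seymour's second neighbourhood conjecture, unweighted, in the form of helper848's note 22880
(P038).  Independent typing by helper486; imports only Mathlib. -/

namespace Vale.Agent.P038.H486

open Finset

variable {V : Type*} [Fintype V] [DecidableEq V]

/-- closed out-neighbourhood of a set -/
def cl (N : V → Finset V) (S : Finset V) : Finset V := S.biUnion N

/-- boundary -/
def c (N : V → Finset V) (S : Finset V) : ℤ := (cl N S).card - S.card

/-- `N` is the closed out-neighbourhood map of an oriented graph. -/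
structure OG (N : V → Finset V) : Prop where
  refl : ∀ a, a ∈ N a
  anti : ∀ a b, b ∈ N a → a ∈ N b → a = b

/-- counterexample -/
def CE (N : V → Finset V) : Prop := ∀ v, (cl N (N v)).card + 2 ≤ 2 * (N v).card

theorem mem_cl {N : V → Finset V} {S : Finset V} {x : V} : x ∈ cl N S ↔ ∃ a ∈ S, x ∈ N a := by
  simp [cl]

theorem subset_cl {N : V → Finset V} (h : OG N) (S : Finset V) : S ⊆ cl N S := by
  intro x hx
  exact mem_cl.2 ⟨x, hx, h.refl x⟩

theorem cl_mono {N : V → Finset V} {S T : Finset V} (h : S ⊆ T) : cl N S ⊆ cl N T := by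
  intro x hx
  obtain ⟨a, ha, hxa⟩ := mem_cl.1 hx
  exact mem_cl.2 ⟨a, h ha, hxa⟩

theorem cl_union (N : V → Finset V) (S T : Finset V) : cl N (S ∪ T) = cl N S ∪ cl N T := by
  ext x
  simp only [mem_cl, mem_union]
  constructor
  · rintro ⟨a, ha | ha, hx⟩
    · exact Or.inl ⟨a, ha, hx⟩
    · exact Or.inr ⟨a, ha, hx⟩
  · rintro (⟨a, ha, hx⟩ | ⟨a, ha, hx⟩)
    · exact ⟨a, Or.inl ha, hx⟩
    · exact ⟨a, Or.inr ha, hx⟩

theorem c_submod (N : V → Finset V) (S T : Finset V) :
    c N (S ∪ T) + c N (S ∩ T) ≤ c N S + c N T := by
  have h1 := Finset.card_union_add_card_inter S T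
  have h2 := Finset.card_union_add_card_inter (cl N S) (cl N T)
  have h3 : (cl N (S ∩ T)).card ≤ (cl N S ∩ cl N T).card := by
    apply Finset.card_le_card
    exact Finset.subset_inter (cl_mono Finset.inter_subset_left) (cl_mono Finset.inter_subset_right)
  unfold c
  rw [cl_union]
  omega

/-! ### (G) -/

section G

variable {N : V → Finset V}

theorem G_aux (hO : OG N) (hC : CE N)
    (hmin : ∀ N' : V → Finset V, OG N' → CE N' → ∑ v, (N v).card ≤ ∑ v, (N' v).card)
    (X T : Finset V) (hT : T ⊆ cl N X \ X)
    (hTm : ∀ T' ⊆ cl N X \ X, ((cl N T \ X).card : ℤ) - 2 * T.card ≤ (cl N T' \ X).card - 2 * T'.card) :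
    T = cl N X \ X := by
  classical
  set L := cl N X \ X with hL
  set N' : V → Finset V := fun v => if v ∈ X then N v \ (L \ T) else N v with hN'
  have hsub : ∀ v, N' v ⊆ N v := by
    intro v
    simp only [hN']
    split_ifs
    · exact Finset.sdiff_subset
    · exact Finset.Subset.refl _
  have hO' : OG N' := by
    constructor
    · intro a
      simp only [hN']
      split_ifs with ha
      · rw [Finset.mem_sdiff]
        refine ⟨hO.refl a, ?_⟩
        intro h
        have := (Finset.mem_sdiff.1 h).1
        exact (Finset.mem_sdiff.1 this).2 ha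
      · exact hO.refl a
    · intro a b hb ha
      exact hO.anti a b (hsub _ hb) (hsub _ ha)
  have hclsub : ∀ S, cl N' S ⊆ cl N S := by
    intro S x hx
    obtain ⟨a, ha, hxa⟩ := mem_cl.1 hx
    exact mem_cl.2 ⟨a, ha, hsub _ hxa⟩
  -- rows of X in N' stay in X ∪ T
  have hrow : ∀ z ∈ X, N' z ⊆ X ∪ T := by
    intro z hz u hu
    simp only [hN', if_pos hz, Finset.mem_sdiff] at hu
    rw [Finset.mem_union]
    by_cases huX : u ∈ X
    · exact Or.inl huX
    · right
      by_contra huT
      apply hu.2
      refine ⟨?_, huT⟩
      rw [hL, Finset.mem_sdiff]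
      exact ⟨mem_cl.2 ⟨z, hz, hu.1⟩, huX⟩
  have hC' : CE N' := by
    intro v
    by_cases hv : v ∈ X
    · set D := N v ∩ (L \ T) with hD
      have hDL : D ⊆ L := fun x hx => (Finset.mem_sdiff.1 (Finset.mem_inter.1 hx).2).1
      have hDT : Disjoint T D := by
        rw [Finset.disjoint_left]
        intro x hx hx'
        exact (Finset.mem_sdiff.1 (Finset.mem_inter.1 hx').2).2 hx
      have hTD : T ∪ D ⊆ L := Finset.union_subset hT hDL
      have h1 := hTm (T ∪ D) hTD
      have h2 : (T ∪ D).card = T.card + D.card := Finset.card_union_of_disjoint hDT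
      set R := cl N D \ (cl N T ∪ X) with hR
      have h3 : (cl N (T ∪ D) \ X).card = (cl N T \ X).card + R.card := by
        rw [← Finset.card_union_of_disjoint]
        · congr 1
          rw [cl_union]
          ext x
          simp only [hR, Finset.mem_sdiff, Finset.mem_union]
          tauto
        · rw [Finset.disjoint_left]
          intro x hx hx'
          simp only [hR, Finset.mem_sdiff, Finset.mem_union] at hx hx'
          tauto
      have h4 : (2 * D.card : ℤ) ≤ R.card := by
        rw [h2, h3] at h1
        push_cast at h1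
        linarith
      have h5 : N' v = N v \ (L \ T) := by simp only [hN', if_pos hv]
      have h6 : (N' v).card + D.card = (N v).card := by
        rw [h5, hD]
        have := Finset.card_sdiff_add_card_inter (N v) (L \ T)
        exact this
      have h7 : Disjoint (cl N' (N' v)) R := by
        rw [Finset.disjoint_left]
        intro u hu huR
        simp only [hR, Finset.mem_sdiff, Finset.mem_union, not_or] at huR
        obtain ⟨z, hz, huz⟩ := mem_cl.1 hu
        have hz' := hrow v hv hz
        rcases Finset.mem_union.1 hz' with hzX | hzT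
        · have := hrow z hzX huz
          rcases Finset.mem_union.1 this with huX | huT
          · exact huR.2.2 huX
          · exact huR.2.1 (subset_cl hO T huT)
        · exact huR.2.1 (mem_cl.2 ⟨z, hzT, hsub _ huz⟩)
      have h8 : cl N' (N' v) ∪ R ⊆ cl N (N v) := by
        apply Finset.union_subset
        · exact (hclsub _).trans (cl_mono (hsub v))
        · intro x hx
          have := (Finset.mem_sdiff.1 hx).1
          exact cl_mono Finset.inter_subset_left this
      have h9 := Finset.card_le_card h8
      rw [Finset.card_union_of_disjoint h7] at h9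
      have h10 := hC v
      omega
    · have h5 : N' v = N v := by simp only [hN', if_neg hv]
      have := hC v
      have h6 := Finset.card_le_card (hclsub (N v))
      rw [h5]
      omega
  have hsum := hmin N' hO' hC'
  have hcard : ∀ v, (N' v).card ≤ (N v).card := fun v => Finset.card_le_card (hsub v)
  have hall : ∀ v, (N' v).card = (N v).card := by
    intro v
    by_contra hne
    have hlt : (N' v).card < (N v).card := lt_of_le_of_ne (hcard v) hne
    have : ∑ v, (N' v).card < ∑ v, (N v).card :=
      Finset.sum_lt_sum (fun i _ => hcard i) ⟨v, Finset.mem_univ v, hlt⟩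
    omega
  have heq : ∀ v, N' v = N v := fun v => Finset.eq_of_subset_of_card_le (hsub v) (hall v).ge
  apply Finset.Subset.antisymm hT
  intro x hx
  by_contra hxT
  obtain ⟨hx1, hx2⟩ := Finset.mem_sdiff.1 hx
  obtain ⟨z, hz, hxz⟩ := mem_cl.1 hx1
  have h := heq z
  simp only [hN', if_pos hz] at h
  rw [← h] at hxz
  exact (Finset.mem_sdiff.1 hxz).2 (Finset.mem_sdiff.2 ⟨hx, hxT⟩)

theorem G_strict (hO : OG N) (hC : CE N)
    (hmin : ∀ N' : V → Finset V, OG N' → CE N' → ∑ v, (N v).card ≤ ∑ v, (N' v).card)
    (X : Finset V) (hX : cl N X ≠ X) : c N (cl N X) < c N X := by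
  classical
  set L := cl N X \ X with hL
  have hLne : L ≠ ∅ := by
    intro h
    apply hX
    apply Finset.Subset.antisymm _ (subset_cl hO X)
    rw [hL, Finset.sdiff_eq_empty_iff_subset] at h
    exact h
  set d : Finset V → ℤ := fun T => ((cl N T \ X).card : ℤ) - 2 * T.card with hd
  obtain ⟨T, hTm, hTmin⟩ := Finset.exists_min_image L.powerset d ⟨∅, by simp⟩
  have hTL : T ⊆ L := Finset.mem_powerset.1 hTm
  have hTeq : T = L := G_aux hO hC hmin X T hTL (fun T' hT' => hTmin T' (Finset.mem_powerset.2 hT'))
  have hneg : d L < 0 := by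
    by_contra hge
    push Not at hge
    have h0 : (∅ : Finset V) = L := by
      apply G_aux hO hC hmin X ∅ (Finset.empty_subset _)
      intro T' hT'
      have h1 := hTmin T' (Finset.mem_powerset.2 hT')
      rw [hTeq] at h1
      have h2 : d ∅ = 0 := by simp [hd, cl]
      have h3 : d ∅ ≤ d T' := by rw [h2]; exact hge.trans h1
      exact h3
    exact hLne h0.symm
  have hcl : cl N X = X ∪ L := by
    rw [hL, Finset.union_sdiff_of_subset (subset_cl hO X)]
  have hcard1 : (cl N X).card = X.card + L.card := by
    rw [hcl, Finset.card_union_of_disjoint]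
    rw [hL]; exact Finset.disjoint_sdiff
  have hclcl : cl N (cl N X) = X ∪ (cl N L \ X) := by
    have h1 : cl N (cl N X) = cl N X ∪ cl N L := by
      conv_lhs => rw [hcl, cl_union]
    have hLL := subset_cl hO L
    rw [h1, hcl]
    ext x
    simp only [Finset.mem_union, Finset.mem_sdiff]
    constructor
    · rintro ((h | h) | h)
      · exact Or.inl h
      · by_cases hx : x ∈ X
        · exact Or.inl hx
        · exact Or.inr ⟨hLL h, hx⟩
      · by_cases hx : x ∈ X
        · exact Or.inl hx
        · exact Or.inr ⟨h, hx⟩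
    · rintro (h | h)
      · exact Or.inl (Or.inl h)
      · exact Or.inr h.1
  have hcard2 : (cl N (cl N X)).card = X.card + (cl N L \ X).card := by
    rw [hclcl, Finset.card_union_of_disjoint Finset.disjoint_sdiff]
  unfold c
  simp only [hd] at hneg
  rw [hcard2, hcard1]
  push_cast
  linarith

theorem G_le (hO : OG N) (hC : CE N)
    (hmin : ∀ N' : V → Finset V, OG N' → CE N' → ∑ v, (N v).card ≤ ∑ v, (N' v).card)
    (X : Finset V) : c N (cl N X) ≤ c N X := by
  by_cases h : cl N X = X
  · rw [h]
  · exact (G_strict hO hC hmin X h).le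

end G

end Vale.Agent.P038.H486
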